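import Mathlib

/-!
# The sum over the permutations of four letters, expanded (P154)
-/

namespace Vale.Agent.H17.P154

open Finset

/-- the 24 permutations of four letters. -/
def perms4 : List (Fin 4 → Fin 4) := [
  ![0, 1, 2, 3],
  ![0, 1, 3, 2],
  ![0, 2, 1, 3],
  ![0, 2, 3, 1],
  ![0, 3, 1, 2],
  ![0, 3, 2, 1],
  ![1, 0, 2, 3],
  ![1, 0, 3, 2],
  ![1, 2, 0, 3],
  ![1, 2, 3, 0],
  ![1, 3, 0, 2],
  ![1, 3, 2, 0],
  ![2, 0, 1, 3],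
  ![2, 0, 3, 1],
  ![2, 1, 0, 3],
  ![2, 1, 3, 0],
  ![2, 3, 0, 1],
  ![2, 3, 1, 0],
  ![3, 0, 1, 2],
  ![3, 0, 2, 1],
  ![3, 1, 0, 2],
  ![3, 1, 2, 0],
  ![3, 2, 0, 1],
  ![3, 2, 1, 0]]

theorem perms4_nodup : perms4.Nodup := by decide +kernel

theorem image_perm4 : Finset.image (fun (π : Equiv.Perm (Fin 4)) (i : Fin 4) => π i)
    (Finset.univ : Finset (Equiv.Perm (Fin 4))) = perms4.toFinset := by decide +kernel

theorem sum_perm4_aux (G : (Fin 4 → Fin 4) → ℝ) :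
    ∑ π : Equiv.Perm (Fin 4), G π = (perms4.map G).sum := by
  rw [← List.sum_toFinset _ perms4_nodup, ← image_perm4, Finset.sum_image]
  intro x _ y _ h
  exact Equiv.ext fun i => congrFun h i

theorem vec4_eq (a b : Fin 4 → ℝ) (p q r s : Fin 4) :
    (fun i => a i * b ((![p, q, r, s] : Fin 4 → Fin 4) i)) =
      ![a 0 * b p, a 1 * b q, a 2 * b r, a 3 * b s] := by
  funext i
  fin_cases i <;> rfl

theorem sum_perm4 (F : (Fin 4 → ℝ) → ℝ) (a b : Fin 4 → ℝ) :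
    ∑ π : Equiv.Perm (Fin 4), F (fun i => a i * b (π i)) =
      F ![a 0 * b 0, a 1 * b 1, a 2 * b 2, a 3 * b 3] +
      F ![a 0 * b 0, a 1 * b 1, a 2 * b 3, a 3 * b 2] +
      F ![a 0 * b 0, a 1 * b 2, a 2 * b 1, a 3 * b 3] +
      F ![a 0 * b 0, a 1 * b 2, a 2 * b 3, a 3 * b 1] +
      F ![a 0 * b 0, a 1 * b 3, a 2 * b 1, a 3 * b 2] +
      F ![a 0 * b 0, a 1 * b 3, a 2 * b 2, a 3 * b 1] +
      F ![a 0 * b 1, a 1 * b 0, a 2 * b 2, a 3 * b 3] +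
      F ![a 0 * b 1, a 1 * b 0, a 2 * b 3, a 3 * b 2] +
      F ![a 0 * b 1, a 1 * b 2, a 2 * b 0, a 3 * b 3] +
      F ![a 0 * b 1, a 1 * b 2, a 2 * b 3, a 3 * b 0] +
      F ![a 0 * b 1, a 1 * b 3, a 2 * b 0, a 3 * b 2] +
      F ![a 0 * b 1, a 1 * b 3, a 2 * b 2, a 3 * b 0] +
      F ![a 0 * b 2, a 1 * b 0, a 2 * b 1, a 3 * b 3] +
      F ![a 0 * b 2, a 1 * b 0, a 2 * b 3, a 3 * b 1] +
      F ![a 0 * b 2, a 1 * b 1, a 2 * b 0, a 3 * b 3] +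
      F ![a 0 * b 2, a 1 * b 1, a 2 * b 3, a 3 * b 0] +
      F ![a 0 * b 2, a 1 * b 3, a 2 * b 0, a 3 * b 1] +
      F ![a 0 * b 2, a 1 * b 3, a 2 * b 1, a 3 * b 0] +
      F ![a 0 * b 3, a 1 * b 0, a 2 * b 1, a 3 * b 2] +
      F ![a 0 * b 3, a 1 * b 0, a 2 * b 2, a 3 * b 1] +
      F ![a 0 * b 3, a 1 * b 1, a 2 * b 0, a 3 * b 2] +
      F ![a 0 * b 3, a 1 * b 1, a 2 * b 2, a 3 * b 0] +
      F ![a 0 * b 3, a 1 * b 2, a 2 * b 0, a 3 * b 1] +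
      F ![a 0 * b 3, a 1 * b 2, a 2 * b 1, a 3 * b 0] := by
  rw [sum_perm4_aux (fun f => F (fun i => a i * b (f i)))]
  simp only [perms4, List.map_cons, List.map_nil, List.sum_cons, List.sum_nil, vec4_eq, add_zero]
  ring

end Vale.Agent.H17.P154
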